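import Claimed.Agent.R314.Geo.Chart
import Claimed.Agent.R316.Base.Geod.Basic
import Claimed.Agent.R316.Base.RGeo.Exp

/-!
# Row 314, GEO, file Basic: locality, one chart, constant speed, existence, uniqueness, gluing of geodesics        (architect helper84; proofs helper10)

PORT of `R316/Base/Geod/{Basic,Loc,Uniq}.lean` (dictionary in `Geo/Defs.lean`).
NO closedness, NO connectedness of `M` in this file.
-/

set_option autoImplicit false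
set_option linter.unusedSectionVars false
set_option linter.unusedVariables false
open scoped ContDiff Topology
open Set Function Claims.C0499 Claimed.Agent.R315
open Claimed.Agent.R316 (RGeo)

namespace Claimed.Agent.R314

variable {V : Type} [NormedAddCommGroup V] [NormedSpace ℝ V] [FiniteDimensional ℝ V]
variable {d : ℕ} {M : Set V} {g : Ten V} {ψ : E d → V} {U : Set (E d)} {γ γ' : ℝ → V} {I J : Set ℝ}

/-! ### 1. Locality, geodesics in one parametrisation   (R316: `Geod/Basic.lean`, `Geod/Loc.lean`) -/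

theorem IsGeo.mono {I' : Set ℝ} (hγ : IsGeo d M g γ I) (hsub : I' ⊆ I) : IsGeo d M g γ I' :=
  ⟨hγ.1.mono hsub, fun t ht => hγ.2.1 t (hsub ht), fun ψ U hψ c J hJ hJo hc => hγ.2.2 ψ U hψ c J (hJ.trans hsub) hJo hc⟩

/-- R316 `IsGeodesic.congr` -/
theorem IsGeo.congr (hγ : IsGeo d M g γ I) (he : EqOn γ' γ I) : IsGeo d M g γ' I :=
  ⟨hγ.1.congr he, fun t ht => he ht ▸ hγ.2.1 t ht, fun ψ U hψ c I' hI' hI'o hc =>
    hγ.2.2 ψ U hψ c I' hI' hI'o fun t ht => ⟨(hc t ht).1, (hc t ht).2.trans (he (hI' ht))⟩⟩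

/-- R316 `IsGeodesic.of_local` -/
theorem IsGeo.of_local (H : ∀ t ∈ I, ∃ J : Set ℝ, IsOpen J ∧ t ∈ J ∧ IsGeo d M g γ J) : IsGeo d M g γ I := by
  refine ⟨fun t ht => ?_, fun t ht => ?_, fun ψ U hψ c I' hI' hI'o hc => ?_⟩
  · obtain ⟨J, hJo, htJ, hJ⟩ := H t ht
    exact (hJ.1.contDiffAt (hJo.mem_nhds htJ)).contDiffWithinAt
  · obtain ⟨J, hJo, htJ, hJ⟩ := H t ht
    exact hJ.2.1 t htJ
  · refine RGeo.isGeod_of_local fun t ht => ?_
    obtain ⟨J, hJo, htJ, hJ⟩ := H t (hI' ht)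
    exact ⟨J ∩ I', hJo.inter hI'o, ⟨htJ, ht⟩,
      hJ.2.2 ψ U hψ c (J ∩ I') inter_subset_left (hJo.inter hI'o) fun s hs => hc s hs.2⟩

theorem IsGeo.union (hI : IsOpen I) (hJ : IsOpen J) (h₁ : IsGeo d M g γ I) (h₂ : IsGeo d M g γ J) : IsGeo d M g γ (I ∪ J) := by
  refine IsGeo.of_local fun t ht => ?_
  rcases ht with ht | ht
  · exact ⟨I, hI, ht, h₁⟩
  · exact ⟨J, hJ, ht, h₂⟩

theorem IsGeo.contDiffAt (hI : IsOpen I) (hγ : IsGeo d M g γ I) {t : ℝ} (ht : t ∈ I) : ContDiffAt ℝ ∞ γ t :=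
  hγ.1.contDiffAt (hI.mem_nhds ht)

theorem IsGeo.differentiableAt (hI : IsOpen I) (hγ : IsGeo d M g γ I) {t : ℝ} (ht : t ∈ I) : DifferentiableAt ℝ γ t :=
  (hγ.contDiffAt hI ht).differentiableAt (by simp)

theorem IsGeo.eventually_mem (hI : IsOpen I) (hγ : IsGeo d M g γ I) {t : ℝ} (ht : t ∈ I) : ∀ᶠ s in 𝓝 t, γ s ∈ M := by
  filter_upwards [hI.mem_nhds ht] with s hs using hγ.2.1 s hs

theorem IsGeo.deriv_tanAt (hM : IsMfd d M) (hI : IsOpen I) (hγ : IsGeo d M g γ I) {t : ℝ} (ht : t ∈ I) : (deriv γ t) ∈ if_Tan d M (γ t) :=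
  geo_deriv_tanAt hM (hγ.differentiableAt hI ht) (hγ.eventually_mem hI ht)

theorem IsGeo.contDiffOn_deriv (hI : IsOpen I) (hγ : IsGeo d M g γ I) : ContDiffOn ℝ ∞ (deriv γ) I :=
  hγ.1.deriv_of_isOpen hI (by simp)

/-- R316 `IsGeodesic.coord` (`geo_lift`) -/
theorem IsGeo.coord (hI : IsOpen I) (hγ : IsGeo d M g γ I) (hψ : IsParam M ψ U) (hsub : ∀ t ∈ I, γ t ∈ ψ '' U) :
    (rgeo g ψ U).IsGeod (invFunOn ψ U ∘ γ) I ∧ ∀ t ∈ I, (invFunOn ψ U ∘ γ) t ∈ U ∧ ψ ((invFunOn ψ U ∘ γ) t) = γ t ∧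
      deriv γ t = fderiv ℝ ψ ((invFunOn ψ U ∘ γ) t) (deriv (invFunOn ψ U ∘ γ) t) := by
  have H := (geo_lift hψ hI hγ.1 hsub).2
  exact ⟨hγ.2.2 ψ U hψ _ I subset_rfl hI fun t ht => ⟨(H t ht).1, (H t ht).2.1⟩, H⟩

/-- R316 `isGeodesic_of_isGeod` -/
theorem isGeo_of_isGeod (hg : IsMetricOn d M g) (hψ : IsParam M ψ U) (hI : IsOpen I) {c : ℝ → E d} (hc : (rgeo g ψ U).IsGeod c I) : IsGeo d M g (ψ ∘ c) I := by
  refine ⟨(if_smooth hψ).comp hc.1 hc.2.1, fun t ht => if_mem hψ (hc.2.1 t ht), ?_⟩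
  intro ψ' W hψ' e I' hI' hI'o he
  have hov := if_isOpen_trDom hψ hψ'
  have hψ₁ : IsParam M ψ (if_trDom ψ U ψ' W) := if_mono hψ hov if_trDom_subset
  have hcU : ∀ t ∈ I', c t ∈ if_trDom ψ U ψ' W := fun t ht =>
    ⟨hc.2.1 t (hI' ht), e t, (he t ht).1, (he t ht).2⟩
  have hc' : (rgeo g ψ (if_trDom ψ U ψ' W)).IsGeod c I' :=
    ⟨hc.1.mono hI', hcU, fun t ht => hc.2.2 t (hI' ht)⟩
  have h1 := (rgeo_isIsom_tr hg hψ hψ').isGeod (rgeo_isRiem hg hψ₁) (rgeo_isRiem hg hψ') hI'o hc'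
  refine R316.geod_isGeod_congr hI'o h1 fun t ht => ?_
  exact (if_tr_eq hψ' (he t ht).1 (he t ht).2.symm).symm

theorem geo_deriv_comp (hψ : IsParam M ψ U) {c : ℝ → E d} {t : ℝ} (hc : DifferentiableAt ℝ c t) (hcU : c t ∈ U) :
    deriv (ψ ∘ c) t = fderiv ℝ ψ (c t) (deriv c t) :=
  ((if_differentiableAt hψ hcU).hasFDerivAt.comp_hasDerivAt t hc.hasDerivAt).deriv

/-- R316 `IsGeodesic.comp_affine` -/
theorem IsGeo.comp_affine (hγ : IsGeo d M g γ I) (c e : ℝ) : IsGeo d M g (fun t => γ (c * t + e)) ((fun t => c * t + e) ⁻¹' I) := by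
  refine ⟨?_, fun t ht => hγ.2.1 _ ht, ?_⟩
  · have haff : ContDiff ℝ ∞ (fun t : ℝ => c * t + e) := by fun_prop
    exact hγ.1.comp haff.contDiffOn (fun t ht => ht)
  · intro ψ U hψ k J hJ hJo hk
    by_cases hc : c = 0
    · subst hc
      rcases J.eq_empty_or_nonempty with rfl | ⟨r₀, hr₀⟩
      · exact ⟨contDiffOn_empty, by simp, by simp⟩
      have hconst : EqOn k (fun _ => k r₀) J := fun r hr =>
        (if_injOn hψ) (hk r hr).1 (hk r₀ hr₀).1 (by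
          rw [(hk r hr).2, (hk r₀ hr₀).2]; simp)
      exact R316.geod_isGeod_congr hJo (RGeo.isGeod_const (S := rgeo g ψ U) (hk r₀ hr₀).1 J) hconst
    · have hJ'o : IsOpen ((fun t : ℝ => (t - e) / c) ⁻¹' J) :=
        hJo.preimage (by fun_prop)
      have hcd : ∀ t : ℝ, c * ((t - e) / c) + e = t := fun t => by field_simp; ring
      have hdc : ∀ r : ℝ, (c * r + e - e) / c = r := fun r => by field_simp; ring
      have hJ'I : (fun t : ℝ => (t - e) / c) ⁻¹' J ⊆ I := fun t ht => by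
        have := hJ ht
        simp only [mem_preimage, hcd] at this
        exact this
      have h1 : (rgeo g ψ U).IsGeod (fun t => k ((t - e) / c)) ((fun t : ℝ => (t - e) / c) ⁻¹' J) :=
        hγ.2.2 ψ U hψ _ _ hJ'I hJ'o (fun t ht => ⟨(hk _ ht).1, by
          rw [(hk _ ht).2]
          show γ (c * ((t - e) / c) + e) = γ t
          rw [hcd]⟩)
      have h2 := h1.comp_affine hJ'o c e
      have e1 : (fun r => (fun t => k ((t - e) / c)) (c * r + e)) = k := by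
        funext r
        show k ((c * r + e - e) / c) = k r
        rw [hdc]
      have e2 : (fun r : ℝ => c * r + e) ⁻¹' ((fun t : ℝ => (t - e) / c) ⁻¹' J) = J := by
        ext r
        show (c * r + e - e) / c ∈ J ↔ r ∈ J
        rw [hdc]
      rwa [e1, e2] at h2

theorem IsGeo.shift {a b : ℝ} (hγ : IsGeo d M g γ (Ioo a b)) (e : ℝ) : IsGeo d M g (fun t => γ (t + e)) (Ioo (a - e) (b - e)) := by
  have := hγ.comp_affine 1 e
  refine (this.mono ?_).congr fun t _ => by simp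
  intro t ht
  simp only [mem_preimage, mem_Ioo, one_mul] at ht ⊢
  constructor <;> linarith [ht.1, ht.2]

theorem IsGeo.reverse {a b : ℝ} (hγ : IsGeo d M g γ (Ioo a b)) (e : ℝ) : IsGeo d M g (fun t => γ (e - t)) (Ioo (e - b) (e - a)) := by
  have := hγ.comp_affine (-1) e
  refine (this.mono ?_).congr fun t _ => by
    show γ (e - t) = γ (-1 * t + e)
    congr 1; ring
  intro t ht
  simp only [mem_preimage, mem_Ioo] at ht ⊢
  constructor <;> linarith [ht.1, ht.2]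

theorem IsGeo.shift_univ (hγ : IsGeo d M g γ univ) (e : ℝ) : IsGeo d M g (fun t => γ (t + e)) univ := by
  have := hγ.comp_affine 1 e
  rw [preimage_univ] at this
  exact this.congr fun t _ => by simp

theorem IsGeo.reverse_univ (hγ : IsGeo d M g γ univ) (e : ℝ) : IsGeo d M g (fun t => γ (e - t)) univ := by
  have := hγ.comp_affine (-1) e
  rw [preimage_univ] at this
  exact this.congr fun t _ => by
    show γ (e - t) = γ (-1 * t + e)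
    congr 1; ring

theorem isGeo_const (hM : IsMfd d M) {x : V} (hx : x ∈ M) (I : Set ℝ) : IsGeo d M g (fun _ => x) I := by
  refine ⟨contDiffOn_const, fun _ _ => hx, ?_⟩
  intro ψ U hψ k J hJ hJo hk
  rcases J.eq_empty_or_nonempty with rfl | ⟨r₀, hr₀⟩
  · exact ⟨contDiffOn_empty, by simp, by simp⟩
  have hconst : EqOn k (fun _ => k r₀) J := fun r hr =>
    (if_injOn hψ) (hk r hr).1 (hk r₀ hr₀).1 (by rw [(hk r hr).2, (hk r₀ hr₀).2])
  exact R316.geod_isGeod_congr hJo (RGeo.isGeod_const (S := rgeo g ψ U) (hk r₀ hr₀).1 J) hconst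

/-! ### 2. Constant speed, existence, uniqueness, gluing   (R316: `Geod/Uniq.lean`) -/

/-- R316 `geod_Ioo_induction` (Mathlib only; copy) -/
theorem geo_Ioo_induction {a b : ℝ} {P : ℝ → Prop} {t₀ : ℝ} (ht₀ : t₀ ∈ Ioo a b) (h0 : P t₀)
    (hloc : ∀ t ∈ Ioo a b, ∃ δ > 0, ∀ s ∈ Ioo (t - δ) (t + δ), ∀ s' ∈ Ioo (t - δ) (t + δ), s ∈ Ioo a b → s' ∈ Ioo a b → P s → P s') :
    ∀ t ∈ Ioo a b, P t := by
  by_contra hcon
  push Not at hcon
  obtain ⟨t₁, ht₁, hP₁⟩ := hcon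
  have hopen : ∀ Q : ℝ → Prop, (∀ t ∈ Set.Ioo a b, ∃ δ > 0, ∀ s ∈ Set.Ioo (t - δ) (t + δ),
      s ∈ Set.Ioo a b → Q t → Q s) → IsOpen {t | t ∈ Set.Ioo a b ∧ Q t} := by
    intro Q hQ
    rw [Metric.isOpen_iff]
    rintro t ⟨ht, hQt⟩
    obtain ⟨δ, hδ, H⟩ := hQ t ht
    obtain ⟨ε, hε, hεs⟩ := Metric.isOpen_iff.1 isOpen_Ioo t ht
    refine ⟨min δ ε, lt_min hδ hε, fun s hs => ?_⟩
    have hs1 : s ∈ Set.Ioo a b := hεs (Metric.ball_subset_ball (min_le_right _ _) hs)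
    have hs2 : s ∈ Set.Ioo (t - δ) (t + δ) := by
      rw [← Real.ball_eq_Ioo]
      exact Metric.ball_subset_ball (min_le_left _ _) hs
    exact ⟨hs1, H s hs2 hs1 hQt⟩
  have hA : IsOpen {t | t ∈ Set.Ioo a b ∧ P t} := by
    refine hopen P fun t ht => ?_
    obtain ⟨δ, hδ, H⟩ := hloc t ht
    exact ⟨δ, hδ, fun s hs hs' hPt => H t ⟨by linarith, by linarith⟩ s hs ht hs' hPt⟩
  have hB : IsOpen {t | t ∈ Set.Ioo a b ∧ ¬ P t} := by
    refine hopen (fun t => ¬ P t) fun t ht => ?_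
    obtain ⟨δ, hδ, H⟩ := hloc t ht
    exact ⟨δ, hδ, fun s hs hs' hPt hPs => hPt (H s hs t ⟨by linarith, by linarith⟩ hs' ht hPs)⟩
  obtain ⟨t, -, ht1, ht2⟩ := isPreconnected_Ioo (a := a) (b := b) _ _ hA hB
    (fun t ht => by
      by_cases hP : P t
      · exact Or.inl ⟨ht, hP⟩
      · exact Or.inr ⟨ht, hP⟩) ⟨t₀, ht₀, ht₀, h0⟩ ⟨t₁, ht₁, ht₁, hP₁⟩
  exact ht2.2 ht1.2

/-- R316 `IsGeodesic.ambQ_const` -/
theorem IsGeo.speed_const (hM : IsMfd d M) (hg : IsMetricOn d M g) {a b : ℝ} (hγ : IsGeo d M g γ (Ioo a b)) {s t : ℝ} (hs : s ∈ Ioo a b) (ht : t ∈ Ioo a b) :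
    g (γ s) (deriv γ s) (deriv γ s) = g (γ t) (deriv γ t) (deriv γ t) := by
  refine (geo_Ioo_induction (P := fun r => g (γ r) (deriv γ r) (deriv γ r) = g (γ s) (deriv γ s) (deriv γ s))
    hs rfl (fun t₁ ht₁ => ?_) t ht).symm
  obtain ⟨ψ, U, hψ, hx⟩ := hM _ (hγ.2.1 t₁ ht₁)
  obtain ⟨δ, hδ, hsub, hch⟩ := geo_exists_chart_nhds isOpen_Ioo hγ.1.continuousOn hγ.2.1 ht₁ hψ hx
  refine ⟨δ, hδ, fun r hr r' hr' _ _ hP => ?_⟩
  have hγJ := hγ.mono hsub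
  obtain ⟨hc, Hc⟩ := hγJ.coord isOpen_Ioo hψ hch
  have e3 := hc.G_const (rgeo_isRiem hg hψ) isOpen_Ioo Set.ordConnected_Ioo hr hr'
  rw [rgeo_G_apply, rgeo_G_apply, (Hc r hr).2.1, (Hc r' hr').2.1, ← (Hc r hr).2.2, ← (Hc r' hr').2.2] at e3
  show g (γ r') (deriv γ r') (deriv γ r') = _
  rw [← e3]
  exact hP

theorem IsGeo.speed_const_univ (hM : IsMfd d M) (hg : IsMetricOn d M g) (hγ : IsGeo d M g γ univ) (s t : ℝ) :
    g (γ s) (deriv γ s) (deriv γ s) = g (γ t) (deriv γ t) (deriv γ t) := by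
  exact (hγ.mono (subset_univ (Ioo (min s t - 1) (max s t + 1)))).speed_const hM hg
    ⟨by linarith [min_le_left s t], by linarith [le_max_left s t]⟩
    ⟨by linarith [min_le_right s t], by linarith [le_max_right s t]⟩

/-- R316 `exists_geodesic` -/
theorem exists_geo (hM : IsMfd d M) (hg : IsMetricOn d M g) {x v : V} (hv : v ∈ if_Tan d M x) :
    ∃ (γ : ℝ → V) (ε : ℝ), 0 < ε ∧ IsGeo d M g γ (Ioo (-ε) ε) ∧ γ 0 = x ∧ deriv γ 0 = v := by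
  obtain ⟨ψ, U, z, a, hψ, hz, rfl, rfl⟩ := hv
  have hS := rgeo_isRiem hg hψ
  have h0 : (0 : ℝ) ∈ {t | (t, (z, a)) ∈ (rgeo g ψ U).gdm} := RGeo.zero_mem_gdm.2 hz
  obtain ⟨ε, hε, hsub⟩ := Metric.isOpen_iff.1 (hS.isOpen_gdm_times z a) 0 h0
  rw [Real.ball_eq_Ioo, zero_sub, zero_add] at hsub
  have hc := (hS.isGeod_gfl z a).mono hsub
  have hd := hS.hasDerivAt_gfl_fst h0
  rw [RGeo.gfl_zero] at hd
  have hc0 : ((rgeo g ψ U).gfl 0 (z, a)).1 = z := by rw [RGeo.gfl_zero]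
  refine ⟨ψ ∘ fun r => ((rgeo g ψ U).gfl r (z, a)).1, ε, hε,
    isGeo_of_isGeod hg hψ isOpen_Ioo hc, ?_, ?_⟩
  · show ψ ((rgeo g ψ U).gfl 0 (z, a)).1 = ψ z
    rw [hc0]
  · rw [geo_deriv_comp hψ hd.differentiableAt (by rw [hc0]; exact hz), hd.deriv, hc0]

/-- R316 `IsGeodesic.eqOn` -/
theorem IsGeo.eqOn (hM : IsMfd d M) (hg : IsMetricOn d M g) {a b t₀ : ℝ} (hγ : IsGeo d M g γ (Ioo a b)) (hγ' : IsGeo d M g γ' (Ioo a b)) (ht₀ : t₀ ∈ Ioo a b)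
    (h0 : γ t₀ = γ' t₀) (h1 : deriv γ t₀ = deriv γ' t₀) : EqOn γ γ' (Ioo a b) := by
  have key := geo_Ioo_induction (P := fun r => γ r = γ' r ∧ deriv γ r = deriv γ' r) ht₀ ⟨h0, h1⟩
    (fun t ht => ?_)
  · exact fun t ht => (key t ht).1
  by_cases hne : γ t = γ' t
  · obtain ⟨ψ, U, hψ, hx⟩ := hM _ (hγ.2.1 t ht)
    obtain ⟨δ₁, hδ₁, hsub₁, hch₁⟩ :=
      geo_exists_chart_nhds isOpen_Ioo hγ.1.continuousOn hγ.2.1 ht hψ hx
    obtain ⟨δ₂, hδ₂, hsub₂, hch₂⟩ :=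
      geo_exists_chart_nhds isOpen_Ioo hγ'.1.continuousOn hγ'.2.1 ht hψ (hne ▸ hx)
    have hJ₁ : Set.Ioo (t - min δ₁ δ₂) (t + min δ₁ δ₂) ⊆ Set.Ioo (t - δ₁) (t + δ₁) := fun r hr =>
      ⟨by linarith [hr.1, min_le_left δ₁ δ₂], by linarith [hr.2, min_le_left δ₁ δ₂]⟩
    have hJ₂ : Set.Ioo (t - min δ₁ δ₂) (t + min δ₁ δ₂) ⊆ Set.Ioo (t - δ₂) (t + δ₂) := fun r hr =>
      ⟨by linarith [hr.1, min_le_right δ₁ δ₂], by linarith [hr.2, min_le_right δ₁ δ₂]⟩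
    refine ⟨min δ₁ δ₂, lt_min hδ₁ hδ₂, fun r hr r' hr' _ _ hP => ?_⟩
    obtain ⟨hc, Hc⟩ := (hγ.mono (hJ₁.trans hsub₁)).coord isOpen_Ioo hψ fun s hs => hch₁ s (hJ₁ hs)
    obtain ⟨hc', Hc'⟩ := (hγ'.mono (hJ₂.trans hsub₂)).coord isOpen_Ioo hψ fun s hs => hch₂ s (hJ₂ hs)
    have e0 : (Function.invFunOn ψ U ∘ γ) r = (Function.invFunOn ψ U ∘ γ') r := by
      show Function.invFunOn ψ U (γ r) = Function.invFunOn ψ U (γ' r)
      rw [hP.1]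
    have e1 : deriv (Function.invFunOn ψ U ∘ γ) r = deriv (Function.invFunOn ψ U ∘ γ') r := by
      apply if_imm hψ (Hc r hr).1
      rw [← (Hc r hr).2.2, e0, ← (Hc' r hr).2.2]
      exact hP.2
    have heq := hc.eqOn (rgeo_isRiem hg hψ) isOpen_Ioo Set.ordConnected_Ioo hc' hr e0 e1
    have heq' : Set.EqOn γ γ' (Set.Ioo (t - min δ₁ δ₂) (t + min δ₁ δ₂)) := fun s hs => by
      rw [← (Hc s hs).2.1, ← (Hc' s hs).2.1, heq hs]
    refine ⟨heq' hr', Filter.EventuallyEq.deriv_eq ?_⟩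
    filter_upwards [isOpen_Ioo.mem_nhds hr'] with s hs using heq' hs
  · have hcont : ContinuousAt (fun s => (γ s, γ' s)) t :=
      (hγ.1.continuousOn.continuousAt (isOpen_Ioo.mem_nhds ht)).prodMk
        (hγ'.1.continuousOn.continuousAt (isOpen_Ioo.mem_nhds ht))
    have hopen : IsOpen {q : V × V | q.1 ≠ q.2} := isOpen_ne_fun continuous_fst continuous_snd
    obtain ⟨δ, hδ, hsub⟩ := Metric.mem_nhds_iff.1 (hcont (hopen.mem_nhds hne))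
    rw [Real.ball_eq_Ioo] at hsub
    exact ⟨δ, hδ, fun r hr r' hr' _ _ hP => absurd hP.1 (hsub hr)⟩

theorem IsGeo.eq_univ (hM : IsMfd d M) (hg : IsMetricOn d M g) (hγ : IsGeo d M g γ univ) (hγ' : IsGeo d M g γ' univ) {t₀ : ℝ}
    (h0 : γ t₀ = γ' t₀) (h1 : deriv γ t₀ = deriv γ' t₀) : γ = γ' := by
  funext t
  exact (hγ.mono (subset_univ (Ioo (min t t₀ - 1) (max t t₀ + 1)))).eqOn hM hg (hγ'.mono (subset_univ _))
    ⟨by linarith [min_le_right t t₀], by linarith [le_max_right t t₀]⟩ h0 h1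
    ⟨by linarith [min_le_left t t₀], by linarith [le_max_left t t₀]⟩

/-- R316 `IsGeodesic.glue` -/
theorem IsGeo.glue (hM : IsMfd d M) (hg : IsMetricOn d M g) {a b c e t₀ : ℝ} (hγ : IsGeo d M g γ (Ioo a b)) (hγ' : IsGeo d M g γ' (Ioo c e)) (ht₀ : t₀ ∈ Ioo a b) (ht₀' : t₀ ∈ Ioo c e)
    (h0 : γ t₀ = γ' t₀) (h1 : deriv γ t₀ = deriv γ' t₀) :
    ∃ σ : ℝ → V, IsGeo d M g σ (Ioo (min a c) (max b e)) ∧ EqOn σ γ (Ioo a b) ∧ EqOn σ γ' (Ioo c e) := by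
  classical
  have hov : Set.EqOn γ γ' (Set.Ioo (max a c) (min b e)) :=
    (hγ.mono fun t ht => ⟨(le_max_left _ _).trans_lt ht.1, ht.2.trans_le (min_le_left _ _)⟩).eqOn hM hg
      (hγ'.mono fun t ht => ⟨(le_max_right _ _).trans_lt ht.1, ht.2.trans_le (min_le_right _ _)⟩)
      ⟨max_lt ht₀.1 ht₀'.1, lt_min ht₀.2 ht₀'.2⟩ h0 h1
  have e1 : Set.EqOn (fun t => if t ∈ Set.Ioo a b then γ t else γ' t) γ (Set.Ioo a b) :=
    fun t ht => if_pos ht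
  have e2 : Set.EqOn (fun t => if t ∈ Set.Ioo a b then γ t else γ' t) γ' (Set.Ioo c e) := by
    intro t ht
    show (if t ∈ Set.Ioo a b then γ t else γ' t) = γ' t
    split_ifs with h'
    · exact hov ⟨max_lt h'.1 ht.1, lt_min h'.2 ht.2⟩
    · rfl
  refine ⟨fun t => if t ∈ Set.Ioo a b then γ t else γ' t, ?_, e1, e2⟩
  refine (IsGeo.union isOpen_Ioo isOpen_Ioo (hγ.congr e1) (hγ'.congr e2)).mono fun t ht => ?_
  rcases le_total t t₀ with hle | hle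
  · rcases min_lt_iff.1 ht.1 with h' | h'
    · exact Or.inl ⟨h', hle.trans_lt ht₀.2⟩
    · exact Or.inr ⟨h', hle.trans_lt ht₀'.2⟩
  · rcases lt_max_iff.1 ht.2 with h' | h'
    · exact Or.inl ⟨ht₀.1.trans_le hle, h'⟩
    · exact Or.inr ⟨ht₀'.1.trans_le hle, h'⟩

/-- R316 `IsGeodesic.glue_of_eventuallyEq` -/
theorem IsGeo.glue_of_eventuallyEq (hM : IsMfd d M) (hg : IsMetricOn d M g) {a b c e t₀ : ℝ} (hγ : IsGeo d M g γ (Ioo a b)) (hγ' : IsGeo d M g γ' (Ioo c e)) (ht₀ : t₀ ∈ Ioo a b)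
    (ht₀' : t₀ ∈ Ioo c e) (he : γ =ᶠ[𝓝 t₀] γ') :
    ∃ σ : ℝ → V, IsGeo d M g σ (Ioo (min a c) (max b e)) ∧ EqOn σ γ (Ioo a b) ∧ EqOn σ γ' (Ioo c e) := by
  exact hγ.glue hM hg hγ' ht₀ ht₀' he.self_of_nhds he.deriv_eq

end Claimed.Agent.R314
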