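import Claimed.Agent.R314.Geo.Basic
import Claimed.Agent.R316.Pack017

/-!
# Row 314, GEO, file ParB: properties of parallel fields along geodesics (GEO-16, GEO-17, GEO-18)        (helper10)

PORT of `R316/Base/Geod/Par.lean`, section 3, in the vocabulary of `C/Defs.lean`.   Prefix `gpb_`.
* `gpb_coord`             : the coordinate field of an `IsPar` field along a curve which stays in one parametrisation.
* `gpb_inner_const`       : GEO-16.
* `gpb_isPar_deriv`       : GEO-17.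
* `gpb_continuousOn_secA` : GEO-18.
-/

set_option autoImplicit false
set_option linter.unusedSectionVars false
set_option linter.unusedVariables false
open scoped ContDiff Topology
open Set Function Claims.C0499 Claimed.Agent.R315
open Claimed.Agent.R316 (RGeo)

namespace Claimed.Agent.R314

variable {V : Type} [NormedAddCommGroup V] [NormedSpace ℝ V] [FiniteDimensional ℝ V]
variable {d : ℕ} {M : Set V} {g : Ten V} {ψ : E d → V} {U : Set (E d)} {γ Y Y' : ℝ → V} {I J : Set ℝ}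

theorem gpb_mono (hY : IsPar d M g γ Y I) (hsub : J ⊆ I) : IsPar d M g γ Y J :=
  ⟨hY.1.mono hsub, fun t ht => hY.2.1 t (hsub ht),
    fun ψ U hp c e K hK hKo hc => hY.2.2 ψ U hp c e K (hK.trans hsub) hKo hc⟩

/-- the coordinate field of a parallel field along a curve which stays in the image of one parametrisation. -/
theorem gpb_coord (hI : IsOpen I) (hγ : ContDiffOn ℝ ∞ γ I) (hY : IsPar d M g γ Y I) (hψ : IsParam M ψ U)
    (hsub : ∀ t ∈ I, γ t ∈ ψ '' U) :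
    ∃ Z : ℝ → E d, ContDiffOn ℝ ∞ Z I ∧ (rgeo g ψ U).IsParallel (invFunOn ψ U ∘ γ) Z I ∧
      ∀ t ∈ I, fderiv ℝ ψ ((invFunOn ψ U ∘ γ) t) (Z t) = Y t := by
  obtain ⟨hc, H⟩ := geo_lift hψ hI hγ hsub
  obtain ⟨Z, hZ, hZe⟩ := geo_lift_field hψ hI hc (fun t ht => (H t ht).1) hY.1
    (fun t ht => by rw [(H t ht).2.1]; exact hY.2.1 t ht)
  exact ⟨Z, hZ, hY.2.2 ψ U hψ _ Z I subset_rfl hI
    (fun t ht => ⟨(H t ht).1, (H t ht).2.1, hZe t ht⟩), hZe⟩

/-- **GEO-16** the inner product of parallel fields is constant. -/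
theorem gpb_inner_const (hM : IsMfd d M) (hg : IsMetricOn d M g) {a b : ℝ} (hγ : IsGeo d M g γ (Ioo a b))
    (hY : IsPar d M g γ Y (Ioo a b)) (hY' : IsPar d M g γ Y' (Ioo a b)) {s t : ℝ} (hs : s ∈ Ioo a b)
    (ht : t ∈ Ioo a b) : g (γ s) (Y s) (Y' s) = g (γ t) (Y t) (Y' t) := by
  refine (geo_Ioo_induction (P := fun r => g (γ r) (Y r) (Y' r) = g (γ s) (Y s) (Y' s)) hs rfl
    (fun t₁ ht₁ => ?_) t ht).symm
  obtain ⟨ψ, U, hψ, u, hu, hx⟩ := hM _ (hγ.2.1 t₁ ht₁)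
  obtain ⟨δ, hδ, hsub, hch⟩ := geo_exists_chart_nhds isOpen_Ioo hγ.1.continuousOn hγ.2.1 ht₁ hψ ⟨u, hu, hx⟩
  refine ⟨δ, hδ, fun r hr r' hr' _ _ hP => ?_⟩
  have hγJ := hγ.mono hsub
  obtain ⟨hc, Hc⟩ := hγJ.coord isOpen_Ioo hψ hch
  obtain ⟨Z, hZs, hZp, hZe⟩ := gpb_coord isOpen_Ioo hγJ.1 (gpb_mono hY hsub) hψ hch
  obtain ⟨Z', hZs', hZp', hZe'⟩ := gpb_coord isOpen_Ioo hγJ.1 (gpb_mono hY' hsub) hψ hch
  have hG := hZp.G_const (rgeo_isRiem hg hψ) ordConnected_Ioo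
    (fun s hs => ⟨(Hc s hs).1, hc.differentiableAt isOpen_Ioo hs⟩) hZp'
    (fun s hs => (hZs.contDiffAt (isOpen_Ioo.mem_nhds hs)).differentiableAt (by simp))
    (fun s hs => (hZs'.contDiffAt (isOpen_Ioo.mem_nhds hs)).differentiableAt (by simp)) hr hr'
  have hval : ∀ q ∈ Ioo (t₁ - δ) (t₁ + δ), g (γ q) (Y q) (Y' q) =
      (rgeo g ψ U).G ((invFunOn ψ U ∘ γ) q) (Z q) (Z' q) := by
    intro q hq
    rw [rgeo_G_apply, hZe q hq, hZe' q hq, (Hc q hq).2.1]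
  show g (γ r') (Y r') (Y' r') = _
  rw [hval r' hr', ← hG, ← hval r hr]
  exact hP

/-- **GEO-17** the velocity of a geodesic is parallel. -/
theorem gpb_isPar_deriv (hM : IsMfd d M) (hI : IsOpen I) (hγ : IsGeo d M g γ I) : IsPar d M g γ (deriv γ) I := by
  refine ⟨hγ.contDiffOn_deriv hI, fun t ht => hγ.deriv_tanAt hM hI ht, ?_⟩
  intro ψ U hψ c e I' hI' hI'o hc
  have hG := hγ.2.2 ψ U hψ c I' hI' hI'o (fun t ht => ⟨(hc t ht).1, (hc t ht).2.1⟩)
  have he : EqOn e (deriv c) I' := by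
    intro t ht
    apply if_imm hψ (hc t ht).1
    rw [(hc t ht).2.2]
    have h1 : γ =ᶠ[𝓝 t] ψ ∘ c := by
      filter_upwards [hI'o.mem_nhds ht] with s hs using ((hc s hs).2.1).symm
    rw [h1.deriv_eq, geo_deriv_comp hψ (hG.differentiableAt hI'o ht) (hc t ht).1]
  intro t ht
  have h2 : e =ᶠ[𝓝 t] deriv c := by
    filter_upwards [hI'o.mem_nhds ht] with s hs using he hs
  rw [← hG.2.2 t ht]
  simp only [RGeo.covD, h2.deriv_eq, h2.self_of_nhds]

/-- **GEO-18** the curvature term along a geodesic is continuous. -/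
theorem gpb_continuousOn_secA (hM : IsMfd d M) (hg : IsMetricOn d M g) (hI : IsOpen I) (hγ : IsGeo d M g γ I)
    (hY : IsPar d M g γ Y I) : ContinuousOn (fun t => secA d M g (γ t) (Y t) (deriv γ t)) I := by
  intro t₁ ht₁
  obtain ⟨ψ, U, hψ, u, hu, hx⟩ := hM _ (hγ.2.1 t₁ ht₁)
  obtain ⟨δ, hδ, hsub, hch⟩ := geo_exists_chart_nhds hI hγ.1.continuousOn hγ.2.1 ht₁ hψ ⟨u, hu, hx⟩
  have hγJ := hγ.mono hsub
  obtain ⟨hc, Hc⟩ := hγJ.coord isOpen_Ioo hψ hch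
  obtain ⟨Z, hZs, hZp, hZe⟩ := gpb_coord isOpen_Ioo hγJ.1 (gpb_mono hY hsub) hψ hch
  have hS := rgeo_isRiem hg hψ
  have hdc := hc.contDiffOn_deriv isOpen_Ioo
  have h1 := hS.contDiffOn_curv_comp hc.1 hc.2.1 hZs hdc hdc
  have h2 := ((hS.G_smooth.comp hc.1 hc.2.1).clm_apply h1).clm_apply hZs
  have hmem : Ioo (t₁ - δ) (t₁ + δ) ∈ 𝓝 t₁ := isOpen_Ioo.mem_nhds ⟨by linarith, by linarith⟩
  refine ((h2.continuousOn.continuousAt hmem).congr ?_).continuousWithinAt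
  filter_upwards [hmem] with s hs
  rw [← (Hc s hs).2.1, ← hZe s hs, (Hc s hs).2.2, (Hc s hs).2.1, ← (Hc s hs).2.1,
    geo_secA_eq hg hψ (Hc s hs).1]
  rfl

end Claimed.Agent.R314
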