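import Claimed.Agent.R314.Geo.Defs
import Claimed.Agent.R314.C.Geo.Chart

/-!
# Row 314, GEO, file Chart: the bridge between `(M, g)` and the chart level library `R316.RGeo`        (architect helper84)

LEAVES   `L-GEO-CH1` = section 1 (`rgeo` is Riemannian, transitions are isometries);    `L-GEO-CH2` = section 2 (lifting curves and fields to a parametrisation);
         `L-GEO-CH3` = section 3 (curvature, Ricci, Hessian: link with `Def_0499`, invariance of `hessQ`, `secA`, `curvA`).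
Tools: `if_metC hg hψ : if_MetC U (cm g ψ)` (`.isOpen`, `.smooth`, `.posDef`, `.isSymm`, `.LC`, `.diff_chr`, `.diff_Gam`), `if_pullC hg h h' : if_PullC ..` (`.rel_bil`, `.conn`, `.curv`, `.ric`, `.hess`),
`if_christoffel_contDiffOn`, `if_bil_apply`, `if_Gam_apply`, `if_cm_bil`, `if_exists_retr`, `if_tr_*`  (all in `R315/Pack001`-`Pack003`).
-/

set_option autoImplicit false
set_option linter.unusedSectionVars false
open scoped ContDiff Topology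
open Set Function Claims.C0499 Claimed.Agent.R315
open Claimed.Agent.R316 (RGeo)

namespace Claimed.Agent.R314

variable {V : Type} [NormedAddCommGroup V] [NormedSpace ℝ V] [FiniteDimensional ℝ V]
variable {d : ℕ} {M : Set V} {g : Ten V} {ψ ψ' : E d → V} {U U' : Set (E d)}

/-! ### 1. `rgeo` -/

/-- the two tangent predicates of row 315 agree (API of `TanAt`: `R315/Pack005`; of `if_Tan`: `R315/Pack002`) -/
theorem geo_tan_iff {x v : V} : v ∈ if_Tan d M x ↔ TanAt d M x v :=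
  ⟨fun ⟨ψ, U, u, a, h, hu, hx, hv⟩ => ⟨ψ, U, u, a, h, hu, hx, hv.symm⟩, fun ⟨ψ, U, u, a, h, hu, hx, hv⟩ => ⟨ψ, U, u, a, h, hu, hx, hv.symm⟩⟩

theorem rgeo_G_apply (g : Ten V) (ψ : E d → V) (U : Set (E d)) (u a b : E d) :
    (rgeo g ψ U).G u a b = g (ψ u) (fderiv ℝ ψ u a) (fderiv ℝ ψ u b) := if_cm_bil g ψ u a b

theorem rgeo_nrm (g : Ten V) (ψ : E d → V) (U : Set (E d)) (u a : E d) :
    (rgeo g ψ U).nrm u a = Real.sqrt (g (ψ u) (fderiv ℝ ψ u a) (fderiv ℝ ψ u a)) := by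
  unfold RGeo.nrm
  rw [rgeo_G_apply]

theorem rgeo_restr (g : Ten V) (ψ : E d → V) (U W : Set (E d)) : (rgeo g ψ U).restr W = rgeo g ψ W := rfl

/-- `G` smooth: `if_bil A = ∑ i j, A i j • (if_pr i).smulRight (if_pr j)` (unfold `if_bil`), entries smooth (`hC.smooth`);  `Γ` smooth: `if_Gam G u = if_tri (christoffel G u)`, a finite sum of `christoffel .. • const`, `if_christoffel_contDiffOn`;
`G_symm`: `if_bil_symm hC.isSymm`;   `G_pos`: `if_bil_eq_dot` + `Matrix.PosDef` (`hC.posDef`);   `Γ_symm`: `if_Gam_apply`, `christoffel G u l i j = christoffel G u l j i` (unfold; `G` symmetric near `u`, so the `pdiff`s agree; or: from `hC.LC` and nondegeneracy `if_bil_nondeg`);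
`compat`: Koszul `hC.LC` for `(a,b,c)` and `(a,c,b)`, added; symmetry of `fderiv G` in the last two slots. -/
theorem rgeo_isRiem (hg : IsMetricOn d M g) (hψ : IsParam M ψ U) : (rgeo g ψ U).IsRiem :=
  geo_rgeo_isRiem hg hψ

/-- (`if_tr_contDiffOn`, `if_tr_mem`, `if_fderiv_tr_injective` + finite dimension (`ContinuousLinearMap.IsInvertible` from injectivity: `if_equiv`), `(if_pullC hg h h').rel_bil`) -/
theorem rgeo_isIsom_tr (hg : IsMetricOn d M g) (h : IsParam M ψ U) (h' : IsParam M ψ' U') :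
    RGeo.IsIsom (rgeo g ψ (if_trDom ψ U ψ' U')) (rgeo g ψ' U') (if_tr ψ' U' ψ) :=
  geo_isIsom_tr g h h'

/-! ### 2. Lifting curves and fields -/

/-- the local mechanism of all lifts: near a time `t₀` with `γ t₀ ∈ ψ '' U`, a curve in `M` which is continuous at `t₀` is `ψ ∘ c`, and `c = ρ ∘ γ` with a smooth `ρ`. -/
theorem geo_lift_aux (hψ : IsParam M ψ U) {γ : ℝ → V} {t₀ : ℝ} (hγ : ContinuousAt γ t₀) (hmem : ∀ᶠ t in 𝓝 t₀, γ t ∈ M) (h0 : γ t₀ ∈ ψ '' U) :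
    ∃ (ρ : V → E d) (O : Set V), IsOpen O ∧ γ t₀ ∈ O ∧ ContDiffOn ℝ ∞ ρ O ∧
      (∀ᶠ t in 𝓝 t₀, γ t ∈ O ∧ γ t ∈ ψ '' U ∧ (invFunOn ψ U ∘ γ) t = ρ (γ t)) := by
  have hu : invFunOn ψ U (γ t₀) ∈ U := if_inv_mem h0
  obtain ⟨ρ, O, hO, h0O, hρ, -, hρe⟩ := if_exists_retr hψ hu
  rw [if_rightInv h0] at h0O
  refine ⟨ρ, O, hO, h0O, hρ, ?_⟩
  filter_upwards [hmem, hγ.preimage_mem_nhds (hO.mem_nhds h0O)] with t h1 h2
  exact ⟨h2, (hρe _ ⟨h1, h2⟩).1, ((hρe _ ⟨h1, h2⟩).2).symm⟩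

/-- one point version for a differentiable curve (proof of `geo_lift_at`, placed here since `geo_lift` uses it) -/
theorem geo_lift_at_aux (hψ : IsParam M ψ U) {γ : ℝ → V} {t₀ : ℝ} (hγ : DifferentiableAt ℝ γ t₀) (hmem : ∀ᶠ t in 𝓝 t₀, γ t ∈ M) (h0 : γ t₀ ∈ ψ '' U) :
    DifferentiableAt ℝ (invFunOn ψ U ∘ γ) t₀ ∧ (∀ᶠ t in 𝓝 t₀, (invFunOn ψ U ∘ γ) t ∈ U ∧ ψ ((invFunOn ψ U ∘ γ) t) = γ t) ∧
      deriv γ t₀ = fderiv ℝ ψ ((invFunOn ψ U ∘ γ) t₀) (deriv (invFunOn ψ U ∘ γ) t₀) := by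
  obtain ⟨ρ, O, hO, h0O, hρ, hev⟩ := geo_lift_aux hψ hγ.continuousAt hmem h0
  have hρd : DifferentiableAt ℝ ρ (γ t₀) := (hρ.contDiffAt (hO.mem_nhds h0O)).differentiableAt (by simp)
  have hce : (invFunOn ψ U ∘ γ) =ᶠ[𝓝 t₀] (ρ ∘ γ) := hev.mono fun t ht => ht.2.2
  have hcd : DifferentiableAt ℝ (invFunOn ψ U ∘ γ) t₀ := (hρd.comp t₀ hγ).congr_of_eventuallyEq hce
  have hev2 : ∀ᶠ t in 𝓝 t₀, (invFunOn ψ U ∘ γ) t ∈ U ∧ ψ ((invFunOn ψ U ∘ γ) t) = γ t :=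
    hev.mono fun t ht => ⟨if_inv_mem ht.2.1, if_rightInv ht.2.1⟩
  refine ⟨hcd, hev2, ?_⟩
  have hψd : HasFDerivAt ψ (fderiv ℝ ψ ((invFunOn ψ U ∘ γ) t₀)) ((invFunOn ψ U ∘ γ) t₀) :=
    (if_differentiableAt hψ (if_inv_mem h0)).hasFDerivAt
  have h1 : HasDerivAt (ψ ∘ (invFunOn ψ U ∘ γ))
      (fderiv ℝ ψ ((invFunOn ψ U ∘ γ) t₀) (deriv (invFunOn ψ U ∘ γ) t₀)) t₀ :=
    hψd.comp_hasDerivAt t₀ hcd.hasDerivAt
  have h2 : γ =ᶠ[𝓝 t₀] (ψ ∘ (invFunOn ψ U ∘ γ)) := hev2.mono fun t ht => ht.2.symm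
  exact (h1.congr_of_eventuallyEq h2).deriv

/-- **coordinate curve.**   `γ` smooth on the open set `I`, with values in `ψ '' U`.   `c := invFunOn ψ U ∘ γ`.   Near `t₀`: `c = ρ ∘ γ` with the smooth local retraction `ρ` of `if_exists_retr`;   `γ = ψ ∘ c` on `I`, chain rule. -/
theorem geo_lift (hψ : IsParam M ψ U) {γ : ℝ → V} {I : Set ℝ} (hI : IsOpen I) (hγ : ContDiffOn ℝ ∞ γ I) (hsub : ∀ t ∈ I, γ t ∈ ψ '' U) :
    ContDiffOn ℝ ∞ (invFunOn ψ U ∘ γ) I ∧ ∀ t ∈ I, (invFunOn ψ U ∘ γ) t ∈ U ∧ ψ ((invFunOn ψ U ∘ γ) t) = γ t ∧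
      deriv γ t = fderiv ℝ ψ ((invFunOn ψ U ∘ γ) t) (deriv (invFunOn ψ U ∘ γ) t) := by
  have hmem : ∀ t ∈ I, ∀ᶠ s in 𝓝 t, γ s ∈ M := fun t ht =>
    Filter.mem_of_superset (hI.mem_nhds ht) fun s hs => if_image_subset hψ (hsub s hs)
  have hγa : ∀ t ∈ I, ContDiffAt ℝ ∞ γ t := fun t ht => hγ.contDiffAt (hI.mem_nhds ht)
  constructor
  · intro t ht
    obtain ⟨ρ, O, hO, h0O, hρ, hev⟩ := geo_lift_aux hψ (hγa t ht).continuousAt (hmem t ht) (hsub t ht)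
    have hce : (invFunOn ψ U ∘ γ) =ᶠ[𝓝 t] (ρ ∘ γ) := hev.mono fun s hs => hs.2.2
    exact (((hρ.contDiffAt (hO.mem_nhds h0O)).comp t (hγa t ht)).congr_of_eventuallyEq hce).contDiffWithinAt
  · intro t ht
    exact ⟨if_inv_mem (hsub t ht), if_rightInv (hsub t ht),
      (geo_lift_at_aux hψ ((hγa t ht).differentiableAt (by simp)) (hmem t ht) (hsub t ht)).2.2⟩

/-- one point version for a differentiable curve (R316: `IsParam.hasFDerivAt_invFunOn_comp`) -/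
theorem geo_lift_at (hψ : IsParam M ψ U) {γ : ℝ → V} {t₀ : ℝ} (hγ : DifferentiableAt ℝ γ t₀) (hmem : ∀ᶠ t in 𝓝 t₀, γ t ∈ M) (h0 : γ t₀ ∈ ψ '' U) :
    DifferentiableAt ℝ (invFunOn ψ U ∘ γ) t₀ ∧ (∀ᶠ t in 𝓝 t₀, (invFunOn ψ U ∘ γ) t ∈ U ∧ ψ ((invFunOn ψ U ∘ γ) t) = γ t) ∧
      deriv γ t₀ = fderiv ℝ ψ ((invFunOn ψ U ∘ γ) t₀) (deriv (invFunOn ψ U ∘ γ) t₀) := by
  exact geo_lift_at_aux hψ hγ hmem h0

/-- any coordinate curve is the canonical one -/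
theorem geo_lift_unique (hψ : IsParam M ψ U) {γ : ℝ → V} {c : ℝ → E d} {t : ℝ} (hc : c t ∈ U) (he : ψ (c t) = γ t) : c t = (invFunOn ψ U ∘ γ) t := by
  rw [Function.comp_apply, ← he]
  exact (if_leftInv hψ hc).symm

/-- **coordinate field.**   `Y` smooth on `I`, tangent along `γ = ψ ∘ c`:  the unique `Z` with `dψ_{c t} (Z t) = Y t` is smooth.   Near `t₀`: `Z t = fderiv ρ (γ t) (Y t)` (`ρ` of `if_exists_retr`; `ρ ∘ ψ = id` near `c t₀`, differentiate). -/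
theorem geo_lift_field (hψ : IsParam M ψ U) {c : ℝ → E d} {Y : ℝ → V} {I : Set ℝ} (hI : IsOpen I) (hc : ContDiffOn ℝ ∞ c I) (hcU : ∀ t ∈ I, c t ∈ U)
    (hY : ContDiffOn ℝ ∞ Y I) (hYt : ∀ t ∈ I, (Y t) ∈ if_Tan d M (ψ (c t))) :
    ∃ Z : ℝ → E d, ContDiffOn ℝ ∞ Z I ∧ ∀ t ∈ I, fderiv ℝ ψ (c t) (Z t) = Y t := by
  classical
  have hex : ∀ t, ∃ a : E d, t ∈ I → fderiv ℝ ψ (c t) a = Y t := by
    intro t
    by_cases ht : t ∈ I
    · obtain ⟨a, ha⟩ := (if_tan_iff hψ (hcU t ht)).1 (hYt t ht)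
      exact ⟨a, fun _ => ha.symm⟩
    · exact ⟨0, fun h => absurd h ht⟩
  choose Z hZ using hex
  refine ⟨Z, ?_, hZ⟩
  intro t₀ ht₀
  have hu : c t₀ ∈ U := hcU t₀ ht₀
  obtain ⟨ρ, O, hO, h0O, hρ, -, hρe⟩ := if_exists_retr hψ hu
  have hca : ContDiffAt ℝ ∞ c t₀ := hc.contDiffAt (hI.mem_nhds ht₀)
  have hYa : ContDiffAt ℝ ∞ Y t₀ := hY.contDiffAt (hI.mem_nhds ht₀)
  have hψa : ContDiffAt ℝ ∞ ψ (c t₀) := if_contDiffAt hψ hu
  have hψc : ContDiffAt ℝ ∞ (fun t => ψ (c t)) t₀ := hψa.comp t₀ hca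
  -- the open set of good parameters
  have hW : U ∩ ψ ⁻¹' O ∈ 𝓝 (c t₀) :=
    Filter.inter_mem ((if_open hψ).mem_nhds hu) (hψa.continuousAt.preimage_mem_nhds (hO.mem_nhds h0O))
  have hWo : IsOpen (U ∩ ψ ⁻¹' O) := (if_continuousOn hψ).isOpen_inter_preimage (if_open hψ) hO
  have hid : ∀ u ∈ U ∩ ψ ⁻¹' O, ∀ a : E d, fderiv ℝ ρ (ψ u) (fderiv ℝ ψ u a) = a := by
    intro u hu' a
    have e1 : (ρ ∘ ψ) =ᶠ[𝓝 u] id := by
      filter_upwards [hWo.mem_nhds hu'] with w hw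
      have := (hρe (ψ w) ⟨if_mem hψ hw.1, hw.2⟩).2
      simp only [Function.comp_apply, id]
      rw [this, if_leftInv hψ hw.1]
    have hρd : DifferentiableAt ℝ ρ (ψ u) := (hρ.contDiffAt (hO.mem_nhds hu'.2)).differentiableAt (by simp)
    have e2 : fderiv ℝ (ρ ∘ ψ) u = (fderiv ℝ ρ (ψ u)).comp (fderiv ℝ ψ u) :=
      fderiv_comp u hρd (if_differentiableAt hψ hu'.1)
    have e3 : fderiv ℝ (ρ ∘ ψ) u = ContinuousLinearMap.id ℝ (E d) := by
      rw [e1.fderiv_eq, fderiv_id]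
    have := congrArg (fun L : E d →L[ℝ] E d => L a) (e2.symm.trans e3)
    simpa using this
  have hZe : Z =ᶠ[𝓝 t₀] fun t => fderiv ℝ ρ (ψ (c t)) (Y t) := by
    filter_upwards [hI.mem_nhds ht₀, hca.continuousAt.preimage_mem_nhds hW] with t ht ht2
    rw [← hZ t ht, hid (c t) ht2]
  have hdρ : ContDiffAt ℝ ∞ (fderiv ℝ ρ) (ψ (c t₀)) :=
    (hρ.fderiv_of_isOpen hO (by simp)).contDiffAt (hO.mem_nhds h0O)
  have h1 : ContDiffAt ℝ ∞ (fun t => fderiv ℝ ρ (ψ (c t))) t₀ := hdρ.comp t₀ hψc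
  exact ((h1.clm_apply hYa).congr_of_eventuallyEq hZe).contDiffWithinAt

/-- a curve in `M` has tangent velocity (`tanAt_of_map`) -/
theorem geo_deriv_tanAt (hM : IsMfd d M) {γ : ℝ → V} {t : ℝ} (hγ : DifferentiableAt ℝ γ t) (hmem : ∀ᶠ s in 𝓝 t, γ s ∈ M) : (deriv γ t) ∈ if_Tan d M (γ t) := by
  have := tanAt_of_map hM hγ hmem (1 : ℝ)
  rw [fderiv_eq_smul_deriv, one_smul] at this
  exact geo_tan_iff.2 this

/-- chart interval around a time (R316: `geod_exists_chart_nhds`; `if_image`, continuity) -/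
theorem geo_exists_chart_nhds {γ : ℝ → V} {I : Set ℝ} (hI : IsOpen I) (hc : ContinuousOn γ I) (hmem : ∀ t ∈ I, γ t ∈ M) {t₀ : ℝ} (ht₀ : t₀ ∈ I)
    (hψ : IsParam M ψ U) (hx : γ t₀ ∈ ψ '' U) :
    ∃ δ > 0, Ioo (t₀ - δ) (t₀ + δ) ⊆ I ∧ ∀ t ∈ Ioo (t₀ - δ) (t₀ + δ), γ t ∈ ψ '' U := by
  obtain ⟨O, hO, he⟩ := if_image hψ
  have h0 : γ t₀ ∈ O := (he ▸ hx : γ t₀ ∈ M ∩ O).2
  have hn : I ∩ γ ⁻¹' O ∈ 𝓝 t₀ :=
    Filter.inter_mem (hI.mem_nhds ht₀) ((hc.continuousAt (hI.mem_nhds ht₀)).preimage_mem_nhds (hO.mem_nhds h0))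
  obtain ⟨δ, hδ, hb⟩ := Metric.mem_nhds_iff.1 hn
  rw [Real.ball_eq_Ioo] at hb
  refine ⟨δ, hδ, fun t ht => (hb ht).1, fun t ht => ?_⟩
  rw [he]
  exact ⟨hmem t (hb ht).1, (hb ht).2⟩

/-! ### 3. Curvature, Ricci, Hessian -/

/-- (`if_curv_Gam`; `RGeo.curv` and `if_curv` are the same formula: `rfl`) -/
theorem rgeo_curv_eb (hg : IsMetricOn d M g) (hψ : IsParam M ψ U) {u : E d} (hu : u ∈ U) (i j k l : Fin d) :
    (rgeo g ψ U).curv u (eb i) (eb j) (eb k) l = riemannCoord (cm g ψ) u l i j k :=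
  if_curv_Gam (fun k i j => (if_metC hg hψ).diff_chr hu k i j) i j k l

/-- a continuous linear map on `E d` is determined by its values on the `eb i` -/
theorem geo_clm_ext {F : Type} [NormedAddCommGroup F] [NormedSpace ℝ F] {L L' : E d →L[ℝ] F} (h : ∀ i, L (eb i) = L' (eb i)) : L = L' :=
  ContinuousLinearMap.coe_injective ((EuclideanSpace.basisFun (Fin d) ℝ).toBasis.ext fun i => by simpa using h i)

/-- comparison of two parametrisations at a common point -/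
theorem geo_tr_data (h : IsParam M ψ U) (h' : IsParam M ψ' U') {u u' : E d} (hu : u ∈ U) (hu' : u' ∈ U') (he : ψ u = ψ' u') :
    u ∈ if_trDom ψ U ψ' U' ∧ if_tr ψ' U' ψ u = u' ∧
      ∀ a a' : E d, fderiv ℝ ψ u a = fderiv ℝ ψ' u' a' → fderiv ℝ (if_tr ψ' U' ψ) u a = a' := by
  have hT := if_mem_trDom hu hu' he
  have e := if_tr_eq h' hu' he
  refine ⟨hT, e, fun a a' hyp => ?_⟩
  rw [if_fderiv_eq h h' hT, e] at hyp
  exact if_imm h' hu' hyp

theorem rgeo_isRiem_trDom (hg : IsMetricOn d M g) (h : IsParam M ψ U) (h' : IsParam M ψ' U') : (rgeo g ψ (if_trDom ψ U ψ' U')).IsRiem :=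
  rgeo_isRiem hg (if_mono h (if_isOpen_trDom h h') if_trDom_subset)

/-- invariance of the curvature operator, two parametrisations -/
theorem geo_curv_tr (hg : IsMetricOn d M g) (h : IsParam M ψ U) (h' : IsParam M ψ' U') {u u' : E d} (hu : u ∈ U) (hu' : u' ∈ U') (he : ψ u = ψ' u')
    {a b c a' b' c' : E d} (ha : fderiv ℝ ψ u a = fderiv ℝ ψ' u' a') (hb : fderiv ℝ ψ u b = fderiv ℝ ψ' u' b') (hc : fderiv ℝ ψ u c = fderiv ℝ ψ' u' c') :
    fderiv ℝ ψ' u' ((rgeo g ψ' U').curv u' a' b' c') = fderiv ℝ ψ u ((rgeo g ψ U).curv u a b c) := by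
  obtain ⟨hT, e, hd⟩ := geo_tr_data h h' hu hu' he
  have key := (rgeo_isIsom_tr hg h h').curv (rgeo_isRiem_trDom hg h h') (rgeo_isRiem hg h') hT a b c
  rw [e, hd a a' ha, hd b b' hb, hd c c' hc] at key
  rw [key, if_fderiv_eq h h' hT, e]
  rfl

/-- invariance of the sectional curvature numerator, two parametrisations -/
theorem geo_secNum_tr (hg : IsMetricOn d M g) (h : IsParam M ψ U) (h' : IsParam M ψ' U') {u u' : E d} (hu : u ∈ U) (hu' : u' ∈ U') (he : ψ u = ψ' u')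
    {a b a' b' : E d} (ha : fderiv ℝ ψ u a = fderiv ℝ ψ' u' a') (hb : fderiv ℝ ψ u b = fderiv ℝ ψ' u' b') :
    (rgeo g ψ' U').secNum u' a' b' = (rgeo g ψ U).secNum u a b := by
  obtain ⟨hT, e, hd⟩ := geo_tr_data h h' hu hu' he
  have key := (rgeo_isIsom_tr hg h h').secNum (rgeo_isRiem_trDom hg h h') (rgeo_isRiem hg h') hT a b
  rw [e, hd a a' ha, hd b b' hb] at key
  exact key

/-- invariance of the Hessian, two parametrisations -/
theorem geo_hess_tr (hg : IsMetricOn d M g) {f : V → ℝ} (hf : SmoothAlong d M f) (h : IsParam M ψ U) (h' : IsParam M ψ' U') {u u' : E d} (hu : u ∈ U) (hu' : u' ∈ U')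
    (he : ψ u = ψ' u') {a b a' b' : E d} (ha : fderiv ℝ ψ u a = fderiv ℝ ψ' u' a') (hb : fderiv ℝ ψ u b = fderiv ℝ ψ' u' b') :
    (rgeo g ψ' U').hess (f ∘ ψ') u' a' b' = (rgeo g ψ U).hess (f ∘ ψ) u a b := by
  obtain ⟨hT, e, hd⟩ := geo_tr_data h h' hu hu' he
  have hsm : ContDiffAt ℝ 2 (f ∘ ψ') (if_tr ψ' U' ψ u) := by
    rw [e]
    exact (if_smoothAlong_contDiffAt hf h' hu').of_le (by norm_cast)
  have key := (rgeo_isIsom_tr hg h h').hess (rgeo_isRiem_trDom hg h h') (rgeo_isRiem hg h') hT hsm a b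
  rw [e, hd a a' ha, hd b b' hb] at key
  rw [← key]
  exact (RGeo.hess_congr _ (if_comp_eventuallyEq f h h' hT) a b).symm

/-- trilinearity + `rgeo_curv_eb` -/
theorem geo_flat_iff (hg : IsMetricOn d M g) :
    Flat d M g ↔ ∀ (ψ : E d → V) (U : Set (E d)), IsParam M ψ U → ∀ u ∈ U, ∀ a b c : E d, (rgeo g ψ U).curv u a b c = 0 := by
  constructor
  · intro H ψ U hψ u hu a b c
    have h0 : (rgeo g ψ U).curvL u = 0 := by
      refine geo_clm_ext fun i => geo_clm_ext fun j => geo_clm_ext fun k => ?_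
      rw [RGeo.curvL_apply]
      ext l
      rw [rgeo_curv_eb hg hψ hu, H ψ U hψ u hu]
      rfl
    rw [← RGeo.curvL_apply, h0]
    rfl
  · intro H ψ U hψ u hu l i j k
    rw [← rgeo_curv_eb hg hψ hu, H ψ U hψ u hu]
    rfl

/-- `S.ric u a = trace (b ↦ R(b,a)a) = ∑ j k, a j a k ricciCoord j k`  (`if_ric_eq_trace`, `if_ric_eb`, `if_ric_bil`; `R316.RGeo.ric` in `R316/Pack017`) -/
theorem rgeo_ric_eq (hg : IsMetricOn d M g) (hψ : IsParam M ψ U) {u : E d} (hu : u ∈ U) (a : E d) :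
    (rgeo g ψ U).ric u a = ∑ j, ∑ k, ricciCoord (cm g ψ) u j k * (a j * a k) := by
  have h1 : (rgeo g ψ U).ric u a = if_ric (if_Gam (cm g ψ)) u a a := by
    rw [if_ric_eq_trace, RGeo.ric]
    congr 1
  rw [h1, ← if_ric_bil, if_bil_apply]
  refine Finset.sum_congr rfl fun j _ => Finset.sum_congr rfl fun k _ => ?_
  rw [Matrix.of_apply, if_ric_eb fun k i j => (if_metC hg hψ).diff_chr hu k i j]

theorem rgeo_ric_zero (hg : IsMetricOn d M g) (hR : RicFlat d M g) (hψ : IsParam M ψ U) {u : E d} (hu : u ∈ U) (a : E d) :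
    (rgeo g ψ U).ric u a = 0 := by
  rw [rgeo_ric_eq hg hψ hu]
  simp [hR ψ U hψ u hu]

/-- invariance (`RGeo.IsIsom.hess` for `rgeo_isIsom_tr`; `f ∘ ψ = (f ∘ ψ') ∘ tr` near `u`: `if_comp_eventuallyEq`; the set in the definition of `hessQ` is a singleton, `csSup_singleton`) -/
theorem geo_hessQ_eq (hg : IsMetricOn d M g) {f : V → ℝ} (hf : SmoothAlong d M f) (hψ : IsParam M ψ U) {u : E d} (hu : u ∈ U) (b : E d) :
    hessQ d M g f (ψ u) (fderiv ℝ ψ u b) = (rgeo g ψ U).hess (f ∘ ψ) u b b := by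
  unfold hessQ
  rw [← csSup_singleton ((rgeo g ψ U).hess (f ∘ ψ) u b b)]
  congr 1
  ext r
  simp only [mem_setOf_eq, mem_singleton_iff]
  constructor
  · rintro ⟨ψ', U', u', b', h', hu', he, hb, rfl⟩
    exact geo_hess_tr hg hf hψ h' hu hu' he.symm hb.symm hb.symm
  · rintro rfl
    exact ⟨ψ, U, u, b, hψ, hu, rfl, rfl, rfl⟩

/-- invariance (`RGeo.IsIsom.curv`) -/
theorem geo_curvA_eq (hg : IsMetricOn d M g) (hψ : IsParam M ψ U) {u : E d} (hu : u ∈ U) (a b c : E d) :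
    curvA d M g (ψ u) (fderiv ℝ ψ u a) (fderiv ℝ ψ u b) (fderiv ℝ ψ u c) = fderiv ℝ ψ u ((rgeo g ψ U).curv u a b c) := by
  have H : ∃ (ψ' : E d → V) (U' : Set (E d)) (u' a' b' c' : E d), IsParam M ψ' U' ∧ u' ∈ U' ∧ ψ' u' = ψ u ∧ fderiv ℝ ψ' u' a' = fderiv ℝ ψ u a ∧
      fderiv ℝ ψ' u' b' = fderiv ℝ ψ u b ∧ fderiv ℝ ψ' u' c' = fderiv ℝ ψ u c := ⟨ψ, U, u, a, b, c, hψ, hu, rfl, rfl, rfl, rfl⟩
  unfold curvA
  rw [dif_pos H]
  obtain ⟨h', hu', he, ha, hb, hc⟩ := H.choose_spec.choose_spec.choose_spec.choose_spec.choose_spec.choose_spec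
  exact geo_curv_tr hg hψ h' hu hu' he.symm ha.symm hb.symm hc.symm

theorem geo_secA_eq_curvA (hM : IsMfd d M) (hg : IsMetricOn d M g) {x a b : V} (ha : a ∈ if_Tan d M x) (hb : b ∈ if_Tan d M x) :
    secA d M g x a b = g x (curvA d M g x a b b) a := by
  obtain ⟨ψ, U, u, A, hψ, hu, rfl, rfl⟩ := ha
  obtain ⟨B, rfl⟩ := (if_tan_iff hψ hu).1 hb
  rw [geo_secA_eq hg hψ hu, geo_curvA_eq hg hψ hu, ← rgeo_G_apply g ψ U]
  rfl

theorem geo_curvA_tanAt (hM : IsMfd d M) (hg : IsMetricOn d M g) {x a b c : V} (ha : a ∈ if_Tan d M x) (hb : b ∈ if_Tan d M x) (hc : c ∈ if_Tan d M x) :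
    (curvA d M g x a b c) ∈ if_Tan d M x := by
  obtain ⟨ψ, U, u, A, hψ, hu, rfl, rfl⟩ := ha
  obtain ⟨B, rfl⟩ := (if_tan_iff hψ hu).1 hb
  obtain ⟨C, rfl⟩ := (if_tan_iff hψ hu).1 hc
  rw [geo_curvA_eq hg hψ hu]
  exact if_tan_mk hψ hu _

/-- **Ricci as a trace over an orthonormal basis** of `T_x M` (`R316.RGeo.ric_eq_sum`, `rgeo_ric_zero`).   `e : Fin d → V` tangent, `g x (e i) (e j) = δ_ij`. -/
theorem geo_sum_secA_eq_zero (hM : IsMfd d M) (hg : IsMetricOn d M g) (hR : RicFlat d M g) {x a : V} (ha : a ∈ if_Tan d M x) {e : Fin d → V}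
    (he : ∀ i, (e i) ∈ if_Tan d M x) (ho : ∀ i j, g x (e i) (e j) = if i = j then 1 else 0) :
    ∑ i, secA d M g x (e i) a = 0 := by
  obtain ⟨ψ, U, u, A, hψ, hu, rfl, rfl⟩ := ha
  choose B hB using fun i => (if_tan_iff hψ hu).1 (he i)
  have hS := rgeo_isRiem hg hψ
  have hG : ∀ i j, (rgeo g ψ U).G u (B i) (B j) = if i = j then 1 else 0 := by
    intro i j
    rw [rgeo_G_apply, ← hB, ← hB, ho]
  have hli : LinearIndependent ℝ B := by
    rw [linearIndependent_iff']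
    intro s c hc j hj
    have h1 : (rgeo g ψ U).G u (∑ i ∈ s, c i • B i) (B j) = c j := by
      rw [map_sum, ContinuousLinearMap.sum_apply, Finset.sum_eq_single j]
      · rw [map_smul, ContinuousLinearMap.smul_apply, hG, if_pos rfl, smul_eq_mul, mul_one]
      · intro i _ hij
        rw [map_smul, ContinuousLinearMap.smul_apply, hG, if_neg hij, smul_zero]
      · intro h
        exact absurd hj h
    rw [hc] at h1
    simpa using h1.symm
  have hspan : Submodule.span ℝ (Set.range B) = ⊤ :=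
    hli.span_eq_top_of_card_eq_finrank' (by simp)
  have hfr : (rgeo g ψ U).IsFrame u B :=
    ⟨fun i => by rw [hG, if_pos rfl], fun i j hij => by rw [hG, if_neg hij], fun a => by rw [hspan]; trivial⟩
  have h0 := RGeo.ric_eq_sum hS hu hfr A
  rw [rgeo_ric_zero hg hR hψ hu] at h0
  rw [h0]
  refine Finset.sum_congr rfl fun i _ => ?_
  rw [hB i, geo_secA_eq hg hψ hu]

/-- `R(·,v)v = 0` for all `v` implies `R = 0`:  polarise in `v`, first Bianchi identity and antisymmetry (`R316/Pack017`: search `curv_` symmetries of `RGeo.IsRiem`; or `rm_low_*` of `R315/Pack005`). -/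
theorem geo_flat_of_curvA (hM : IsMfd d M) (hg : IsMetricOn d M g) (H : ∀ x ∈ M, ∀ a v : V, a ∈ if_Tan d M x → v ∈ if_Tan d M x → curvA d M g x a v v = 0) :
    Flat d M g := by
  rw [geo_flat_iff hg]
  intro ψ U hψ u hu
  set S := rgeo g ψ U with hSdef
  have hS : S.IsRiem := rgeo_isRiem hg hψ
  -- `R(a,v)v = 0` in the chart
  have h0 : ∀ a v : E d, S.curv u a v v = 0 := by
    intro a v
    have h1 := H (ψ u) (if_mem hψ hu) _ _ (if_tan_mk hψ hu a) (if_tan_mk hψ hu v)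
    rw [geo_curvA_eq hg hψ hu] at h1
    exact if_imm hψ hu (h1.trans (map_zero _).symm)
  -- polarisation
  have h1 : ∀ a v w : E d, S.curv u a v w = - S.curv u a w v := by
    intro a v w
    have e := h0 a (v + w)
    simp only [← RGeo.curvL_apply, map_add, ContinuousLinearMap.add_apply] at e
    simp only [RGeo.curvL_apply, h0, zero_add, add_zero] at e
    exact eq_neg_of_add_eq_zero_right e
  -- `R(w,a)v = R(a,v)w`
  have h2 : ∀ a v w : E d, S.curv u w a v = S.curv u a v w := by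
    intro a v w
    rw [RGeo.curv_antisymm, h1 a v w]
  intro a v w
  have b1 := hS.curv_bianchi hu a v w
  rw [h2 a v w, h2 w a v, h2 a v w] at b1
  have b2 : (3 : ℝ) • S.curv u a v w = 0 := by
    rw [← b1]
    module
  exact (smul_eq_zero.1 b2).resolve_left (by norm_num)

end Claimed.Agent.R314
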