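import Claimed.Agent.R314.C.Defs
import Claimed.Agent.R315.Pack005
import Claimed.Agent.R316.Base.RGeo.Jac
import Claimed.Agent.R316.Base.RGeo.Pull

/-!
# Row 314, block C, package GEO (architect helper84): geodesics of `(M, g)` in the language of row 315.  DEFINITIONS

The definitions `rgeo`, `IsSeg`, `IsRay`, `IsLine`, `IsGeo`, `IsPar`, `secA`, `CM` are those of the chief (`R314/C/Defs.lean`).  Here: only what GEO adds.

PORT of `R316/Base/{Geod,Metric}` (global layer, written there for Kaehler manifolds `CMfd`/`HFam`) to `IsMfd d M`, `IsMetricOn d M g`, `rdist M g`.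
The chart level library `R316.RGeo` (`R316/Base/RGeo/{Defs,Basic,Par,Exp,Jac,Pull}.lean`, `R316/Pack014_2`, `R316/Pack017`, `R316/Base/ODE`) is REAL and is imported, not copied.

DICTIONARY  (R316 -> R314)
  `𝓜 : CMfd V ι`, `h : HFam V ι`, `hk : IsKahler 𝓜 h` / `hm : IsMetric 𝓜 h`     ->  `M : Set V`, `g : Ten V`, `(hM : IsMfd d M) (hg : IsMetricOn d M g)`
  `hconn : IsConnected 𝓜.carrier`          ->  `hc : IsPreconnected M`
  `𝓜.IsHol Φ U`  (`Φ : CE ι → V`)          ->  `IsParam M ψ U`  (`ψ : E d → V`)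
  `kgeo h Φ U`, `kgeo_isRiem hk hΦ`         ->  `rgeo g ψ U`, `rgeo_isRiem hg hψ`
  `isIsom_trans`                            ->  `rgeo_isIsom_tr`
  `x ∈ 𝓜.carrier`, `v ∈ 𝓜.tangent x`       ->  `x ∈ M`, `v ∈ if_Tan d M x`
  `ambQ 𝓜 h x v`, `ambB 𝓜 h x a b`         ->  `g x v v`, `g x a b`      (the metric is an AMBIENT tensor: no `coVec`, no `amb*_param` lemmas; `if_cm_bil` is the bridge to charts)
  `qf (h Φ z) a`                            ->  `if_bil (cm g ψ z) a a`  (`= (rgeo g ψ U).G z a a` by `rfl`)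
  `hdist 𝓜 h`, `hball`, `hcball`            ->  `rdist M g`, `rb M g`, `cb M g`
  `IsProperMetric 𝓜 h`                      ->  `IsProperOn M g`
  `IsGeodesic`, `IsParallelAlong`, `IsMinGeod`, `IsRay`      ->  `IsGeo`, `IsPar`, `IsMinG`, `IsRayG`  (+ `IsLineG`)
  `IsC1Curve 𝓜 γ`, `len 𝓜 h γ a b`         ->  `if_Adm M c` (only `Icc 0 1` is constrained), `∫ t in a..b, if_speed g c t`
  metric API `hdist_*` (`R316/Pack008`, `Pack009`)      ->  `if_rdist_*` (`R315/Pack002`, `Pack003`) and `Geo/Metric.lean`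
-/

set_option autoImplicit false
open scoped ContDiff Topology
open Set Claims.C0499 Claimed.Agent.R315
open Claimed.Agent.R316 (RGeo)

namespace Claimed.Agent.R314

variable {V : Type} [NormedAddCommGroup V] [NormedSpace ℝ V]

/-- open metric ball of `(M, g)`. -/
def rb (M : Set V) (g : Ten V) (x : V) (r : ℝ) : Set V := {y | y ∈ M ∧ rdist M g x y < r}

/-- unit speed minimizing geodesic from `x` to `y` on `[0,l]` (a geodesic on a slightly larger open interval). -/
def IsMinG (d : ℕ) (M : Set V) (g : Ten V) (γ : ℝ → V) (x y : V) (l : ℝ) : Prop :=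
  (∃ ε > 0, IsGeo d M g γ (Ioo (-ε) (l + ε))) ∧ γ 0 = x ∧ γ l = y ∧ l = rdist M g x y ∧
  ∀ s ∈ Icc (0 : ℝ) l, ∀ t ∈ Icc (0 : ℝ) l, rdist M g (γ s) (γ t) = |s - t|

/-- a ray from `o`: a geodesic defined on all of `ℝ`, minimizing on `[0,∞)`. -/
def IsRayG (d : ℕ) (M : Set V) (g : Ten V) (γ : ℝ → V) (o : V) : Prop :=
  IsGeo d M g γ univ ∧ γ 0 = o ∧ ∀ s ∈ Ici (0 : ℝ), ∀ t ∈ Ici (0 : ℝ), rdist M g (γ s) (γ t) = |s - t|

/-- a line. -/
def IsLineG (d : ℕ) (M : Set V) (g : Ten V) (γ : ℝ → V) : Prop :=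
  IsGeo d M g γ univ ∧ ∀ s t : ℝ, rdist M g (γ s) (γ t) = |s - t|

/-- the Hessian quadratic form of `f` (smooth along `M`) at `x` on the tangent vector `a`: the value in ANY parametrisation (`geo_hessQ_eq`). -/
noncomputable def hessQ (d : ℕ) (M : Set V) (g : Ten V) (f : V → ℝ) (x a : V) : ℝ :=
  sSup {r | ∃ (ψ : E d → V) (U : Set (E d)) (u b : E d), IsParam M ψ U ∧ u ∈ U ∧ ψ u = x ∧ fderiv ℝ ψ u b = a ∧
    r = (rgeo g ψ U).hess (f ∘ ψ) u b b}

/-- the curvature operator `R(a,b)c` on ambient tangent vectors, as an ambient tangent vector (`geo_curvA_eq`). -/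
noncomputable def curvA (d : ℕ) (M : Set V) (g : Ten V) (x a b c : V) : V :=
  open Classical in
  if H : ∃ (ψ : E d → V) (U : Set (E d)) (u a' b' c' : E d), IsParam M ψ U ∧ u ∈ U ∧ ψ u = x ∧ fderiv ℝ ψ u a' = a ∧
    fderiv ℝ ψ u b' = b ∧ fderiv ℝ ψ u c' = c
  then fderiv ℝ H.choose H.choose_spec.choose_spec.choose
    ((rgeo g H.choose H.choose_spec.choose).curv H.choose_spec.choose_spec.choose
      H.choose_spec.choose_spec.choose_spec.choose H.choose_spec.choose_spec.choose_spec.choose_spec.choose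
      H.choose_spec.choose_spec.choose_spec.choose_spec.choose_spec.choose)
  else 0

end Claimed.Agent.R314
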